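import Mathlib

/-! Part (5) B: every recursively enumerable predicate is the halting problem of a finite
Post-Turing machine started on a word `a b b ... b`. -/

namespace Vale.Agent.P113.TS

open Turing StateTransition

/-- binary words of the numbers `2 ^ k - 1`. -/
theorem trNat_two_pow (k : ℕ) :
    PartrecToTM2.trNat (2 ^ k - 1) = List.replicate k PartrecToTM2.Γ'.bit1 := by
  have pos : ∀ k : ℕ, ∃ p : PosNum, (p : ℕ) = 2 ^ (k + 1) - 1 ∧
      PartrecToTM2.trPosNum p = List.replicate (k + 1) PartrecToTM2.Γ'.bit1 := by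
    intro k
    induction k with
    | zero => exact ⟨PosNum.one, rfl, rfl⟩
    | succ k ih =>
      obtain ⟨p, h1, h2⟩ := ih
      refine ⟨PosNum.bit1 p, ?_, ?_⟩
      · rw [PosNum.cast_bit1, h1]
        have : 1 ≤ 2 ^ (k + 1) := Nat.one_le_two_pow
        rw [pow_succ 2 (k + 1)]
        omega
      · rw [PartrecToTM2.trPosNum, h2, List.replicate_succ (n := k + 1)]
  rcases k with _ | k
  · simp
  · obtain ⟨p, h1, h2⟩ := pos k
    rw [PartrecToTM2.trNat]
    have : ((2 ^ (k + 1) - 1 : ℕ) : Num) = Num.pos p := by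
      rw [← h1]
      exact_mod_cast Num.of_to_nat (Num.pos p)
    rw [this, PartrecToTM2.trNum, h2]

/-- logarithm, computable. -/
theorem exists_log : ∃ f : ℕ → ℕ, Computable f ∧ ∀ k, f (2 ^ k - 1) = k := by
  have hP : ComputablePred (fun p : ℕ × ℕ => p.1 < 2 ^ p.2) := by
    have hpow : Primrec₂ ((· ^ ·) : ℕ → ℕ → ℕ) :=
      Primrec₂.unpaired'.1 Nat.Primrec.pow
    have : PrimrecPred (fun p : ℕ × ℕ => p.1 < 2 ^ p.2) :=
      Primrec.nat_lt.comp Primrec.fst (hpow.comp (Primrec.const 2) Primrec.snd)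
    exact this.computablePred
  have hex : ∀ N : ℕ, ∃ n, N < 2 ^ n := fun N => ⟨N, Nat.lt_two_pow_self⟩
  refine ⟨_, Computable.find hP hex, fun k => ?_⟩
  rw [Nat.find_eq_iff]
  refine ⟨?_, fun m hm => ?_⟩
  · have := Nat.one_le_two_pow (n := k)
    omega
  · have h1 : 2 ^ m < 2 ^ k := Nat.pow_lt_pow_right (by norm_num) hm
    omega

/-- A code for an r.e. predicate, with input in unary. -/
theorem exists_code (K : ℕ → Prop) (hK : REPred K) :
    ∃ c : ToPartrec.Code, ∀ k, K k ↔ (c.eval [2 ^ k - 1]).Dom := by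
  obtain ⟨f, hf, hfk⟩ := exists_log
  have h1 : Partrec (fun N : ℕ => (Part.assert (K (f N)) fun _ => Part.some ()).map
      fun _ => (0 : ℕ)) :=
    (hK.comp hf).map (Computable.const 0).to₂
  obtain ⟨c, hc⟩ := ToPartrec.Code.exists_code (Nat.Partrec'.part_iff₁.2 h1)
  refine ⟨c, fun k => ?_⟩
  have := hc ⟨[2 ^ k - 1], rfl⟩
  simp only at this
  rw [this]
  simp [Part.assert, List.Vector.head, hfk]

/-- the program, with its type unfolded -/
abbrev trP : PartrecToTM2.Λ' → TM2.Stmt (fun _ : PartrecToTM2.K' => PartrecToTM2.Γ')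
    PartrecToTM2.Λ' (Option PartrecToTM2.Γ') := PartrecToTM2.tr

/-- TM2 -/
theorem tm2_dom (c : ToPartrec.Code) (k : ℕ) :
    letI : Inhabited PartrecToTM2.Λ' := ⟨PartrecToTM2.trNormal c PartrecToTM2.Cont'.halt⟩
    (c.eval [2 ^ k - 1]).Dom ↔ (TM2.eval trP PartrecToTM2.K'.main
      (PartrecToTM2.trList [2 ^ k - 1])).Dom := by
  let : Inhabited PartrecToTM2.Λ' := ⟨PartrecToTM2.trNormal c PartrecToTM2.Cont'.halt⟩
  have h := PartrecToTM2.tr_eval c [2 ^ k - 1]
  have hi : (TM2.init PartrecToTM2.K'.main (PartrecToTM2.trList [2 ^ k - 1]) :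
      TM2.Cfg (fun _ : PartrecToTM2.K' => PartrecToTM2.Γ') PartrecToTM2.Λ'
        (Option PartrecToTM2.Γ')) = PartrecToTM2.init c [2 ^ k - 1] := by
    unfold TM2.init PartrecToTM2.init
    congr 1
    funext s
    cases s <;> rfl
  show _ ↔ ((StateTransition.eval _ (TM2.init _ _)).map _).Dom
  rw [hi]
  show _ ↔ (StateTransition.eval (TM2.step PartrecToTM2.tr) (PartrecToTM2.init c [2 ^ k - 1])).Dom
  rw [h]
  simp

/-- the alphabet of the tape machine -/
abbrev TΓ : Type := TM2to1.Γ' PartrecToTM2.K' (fun _ => PartrecToTM2.Γ')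

/-- the first symbol -/
def symA : TΓ :=
  (true, Function.update (fun _ => none) PartrecToTM2.K'.main (some PartrecToTM2.Γ'.cons))

/-- the other symbols -/
def symB : TΓ :=
  (false, Function.update (fun _ => none) PartrecToTM2.K'.main (some PartrecToTM2.Γ'.bit1))

theorem trInit_eq (k : ℕ) : TM2to1.trInit PartrecToTM2.K'.main
    (PartrecToTM2.trList [2 ^ k - 1]) = symA :: List.replicate k symB := by
  have : PartrecToTM2.trList [2 ^ k - 1] =
      List.replicate k PartrecToTM2.Γ'.bit1 ++ [PartrecToTM2.Γ'.cons] := by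
    rw [PartrecToTM2.trList, trNat_two_pow]; rfl
  rw [this]
  unfold TM2to1.trInit
  simp only [List.reverse_append, List.reverse_cons, List.reverse_nil, List.nil_append,
    List.reverse_replicate, List.singleton_append]
  exact congrArg (List.cons symA) List.map_replicate

theorem finite_TΓ : Finite TΓ := by
  have : Finite PartrecToTM2.K' := by
    refine Finite.of_injective (fun s : PartrecToTM2.K' => (match s with
      | .main => 0 | .rev => 1 | .aux => 2 | .stack => 3 : Fin 4)) ?_
    intro s t h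
    cases s <;> cases t <;> simp_all
  unfold TΓ TM2to1.Γ'
  infer_instance

/-- restriction of a machine to a supporting set of states. -/
theorem restrict {Γ Λ : Type} [Inhabited Γ] [Inhabited Λ] (M : TM0.Machine Γ Λ) (S : Set Λ)
    (hS : TM0.Supports M S) :
    letI : Inhabited S := ⟨⟨default, hS.1⟩⟩
    ∃ M' : TM0.Machine Γ S, ∀ l : List Γ, (TM0.eval M' l).Dom ↔ (TM0.eval M l).Dom := by
  let _ : Inhabited S := ⟨⟨default, hS.1⟩⟩
  let M' : TM0.Machine Γ S := fun q a =>
    match h : M q a with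
    | none => none
    | some (q', s) => some (⟨q', hS.2 (by rw [h]; rfl) q.2⟩, s)
  have hM' : ∀ (q : S) (a : Γ), (M' q a).map (fun p => ((p.1 : Λ), p.2)) = M q a := by
    intro q a
    simp only [M']
    split
    · next h => exact h.symm
    · next q' s h => exact h.symm
  refine ⟨M', fun l => ?_⟩
  have hr : Respects (TM0.step M) (TM0.step M') (fun c c' => c = ⟨(c'.q : Λ), c'.Tape⟩) := by
    rintro _ ⟨q, T⟩ rfl
    have h1 := hM' q T.1
    rcases h2 : M' q T.1 with _ | ⟨q', s⟩
    · rw [h2] at h1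
      have h3 : TM0.step M ⟨(q : Λ), T⟩ = none := by
        simp only [TM0.step, ← h1, Option.map_none]
      rw [h3]
      simp only [TM0.step, h2, Option.map_none]
    · rw [h2] at h1
      have h3 : TM0.step M ⟨(q : Λ), T⟩ = some ⟨(q' : Λ), match s with
          | TM0.Stmt.move d => T.move d
          | TM0.Stmt.write a => T.write a⟩ := by
        simp only [TM0.step, ← h1, Option.map_some]
        cases s <;> rfl
      have h4 : TM0.step M' ⟨q, T⟩ = some ⟨q', match s with
          | TM0.Stmt.move d => T.move d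
          | TM0.Stmt.write a => T.write a⟩ := by
        simp only [TM0.step, h2, Option.map_some]
        cases s <;> rfl
      rw [h3]
      refine ⟨_, ?_, Relation.TransGen.single h4⟩
      cases s <;> rfl
  have h := StateTransition.tr_eval_dom hr (a₁ := TM0.init l) (a₂ := TM0.init l) rfl
  exact h

/-- Every r.e. predicate is the halting problem of a finite Post-Turing machine. -/
theorem exists_tm0 (K : ℕ → Prop) (hK : REPred K) :
    ∃ (Γ Q : Type) (_ : Inhabited Γ) (_ : Inhabited Q) (_ : Finite Γ) (_ : Finite Q)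
      (M : TM0.Machine Γ Q) (a b : Γ),
      ∀ k, K k ↔ (TM0.eval M (a :: List.replicate k b)).Dom := by
  obtain ⟨c, hc⟩ := exists_code K hK
  let _ : Inhabited PartrecToTM2.Λ' := ⟨PartrecToTM2.trNormal c PartrecToTM2.Cont'.halt⟩
  have hs2 : TM2.Supports trP (PartrecToTM2.codeSupp c PartrecToTM2.Cont'.halt) :=
    PartrecToTM2.tr_supports c PartrecToTM2.Cont'.halt
  have hs1 := TM2to1.tr_supports trP hs2
  have hs0 := TM1to0.tr_supports _ hs1
  obtain ⟨M', hM'⟩ := restrict _ _ hs0
  refine ⟨TΓ, _, inferInstance, _, finite_TΓ, ?_, M', symA, symB, fun k => ?_⟩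
  · exact Finset.finite_toSet _
  · refine (hc k).trans ((tm2_dom c k).trans ?_)
    refine Iff.trans ?_ (hM' _).symm
    rw [TM1to0.tr_eval, ← trInit_eq]
    exact (TM2to1.tr_eval_dom trP _ _).symm

end Vale.Agent.P113.TS
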