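import Mathlib

/-! Interface of part (5): finite two-stack machines in the form needed for the real encoding. -/

namespace Vale.Agent.P113.TS

/-- What a two-stack machine does with its stacks `(X, Y)` in a case `c` with key `(k₁, k₂)`:
`keep w` : `X' = w ++ tail X` (`w` has length `≤ 1`), `Y' = k₁ :: k₂ :: Y`;
`turn`   : `X' = Y`, `Y' = k₁ :: k₂ :: tail X`. -/
inductive Act (E : Type) : Type
  | keep (w : Option E) : Act E
  | turn : Act E

/-- A two-stack machine over the alphabet `E`, with cases `C`. The top of an empty stack reads
`blank`. `cls e j` is the case when `e` is the top of `X` and `j` the top of `Y`; it is `none` when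
the machine has halted. -/
structure Mach (E C : Type) where
  blank : E
  cls : E → E → Option C
  top : C → E
  key : C → E × E
  act : C → Act E
  cls_top : ∀ e j c, cls e j = some c → top c = e
  key_inj : Function.Injective key

variable {E C : Type}

/-- the new stacks, in case `c`. -/
def Mach.app (T : Mach E C) (c : C) (X Y : List E) : List E × List E :=
  match T.act c with
  | .keep w => (w.toList ++ X.tail, (T.key c).1 :: (T.key c).2 :: Y)
  | .turn => (Y, (T.key c).1 :: (T.key c).2 :: X.tail)

/-- One step; `none` = halted. -/
def Mach.step (T : Mach E C) (Z : List E × List E) : Option (List E × List E) :=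
  (T.cls (Z.1.headD T.blank) (Z.2.headD T.blank)).map fun c => T.app c Z.1 Z.2

/-- `m` steps from a configuration; `none` = halted before or during these steps. -/
def Mach.run (T : Mach E C) (Z : List E × List E) : ℕ → Option (List E × List E)
  | 0 => some Z
  | m + 1 => (T.run Z m).bind T.step

end Vale.Agent.P113.TS
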