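import Vale.Agent.P113.H55.Def

/-! Part (5) C: a two-stack machine with junk insertion which simulates a Post-Turing machine. -/

namespace Vale.Agent.P113.TS

open Turing StateTransition

section

variable {Γ Q : Type} [Inhabited Γ] [Inhabited Q]

/-- directions as booleans -/
def dirB : Dir → Bool
  | Dir.left => false
  | Dir.right => true

/-- control states: state of the machine and orientation -/
abbrev Ctl (Q : Type) : Type := Q × Bool

/-- junk symbols -/
abbrev Jk (Γ Q : Type) : Type := Option (Ctl Q × Option Γ)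

/-- stack symbols -/
abbrev Sy (Γ Q : Type) : Type := Γ ⊕ Jk Γ Q

variable (M : Q → Γ → Option (Q × TM0.Stmt Γ))

/-- control state after a case `(s, a)` -/
def nxtA (s : Ctl Q) (a : Γ) : Ctl Q :=
  match M s.1 a with
  | some (q', TM0.Stmt.move d) => (q', dirB d)
  | some (q', TM0.Stmt.write _) => (q', s.2)
  | none => s

/-- control state read off a junk symbol -/
def nxt : Jk Γ Q → Ctl Q
  | none => (default, true)
  | some (s, none) => s
  | some (s, some a) => nxtA M s a

omit [Inhabited Γ] in
theorem nxt_skip (s : Ctl Q) : nxt M (some (s, none)) = s := rfl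

omit [Inhabited Γ] in
theorem nxt_tape (s : Ctl Q) (a : Γ) : nxt M (some (s, some a)) = nxtA M s a := rfl

omit [Inhabited Γ] [Inhabited Q] in
theorem nxtA_move {s : Ctl Q} {a : Γ} {q' : Q} {d : Dir}
    (h : M s.1 a = some (q', TM0.Stmt.move d)) : nxtA M s a = (q', dirB d) := by
  simp only [nxtA, h]

omit [Inhabited Γ] [Inhabited Q] in
theorem nxtA_write {s : Ctl Q} {a : Γ} {q' : Q} {b : Γ}
    (h : M s.1 a = some (q', TM0.Stmt.write b)) : nxtA M s a = (q', s.2) := by
  simp only [nxtA, h]

/-- The two-stack machine. -/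
def mach : Mach (Sy Γ Q) (Ctl Q × Sy Γ Q) where
  blank := Sum.inl default
  cls e j :=
    match j, e with
    | Sum.inl _, _ => none
    | Sum.inr j, Sum.inl a => if (M (nxt M j).1 a).isSome then some (nxt M j, Sum.inl a) else none
    | Sum.inr j, Sum.inr e => some (nxt M j, Sum.inr e)
  top c := c.2
  key c :=
    match c with
    | (s, Sum.inl a) => (Sum.inr (some (s, some a)),
        match M s.1 a with
        | some (_, TM0.Stmt.write _) => Sum.inr none
        | _ => Sum.inl a)
    | (s, Sum.inr e) => (Sum.inr (some (s, none)), Sum.inr e)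
  act c :=
    match c with
    | (s, Sum.inl a) =>
        match M s.1 a with
        | some (_, TM0.Stmt.write b) => Act.keep (some (Sum.inl b))
        | some (_, TM0.Stmt.move d) => if dirB d = s.2 then Act.keep none else Act.turn
        | none => Act.keep none
    | (_, Sum.inr _) => Act.keep none
  cls_top := by
    rintro (a | e) (b | j) c h
    · cases h
    · simp only at h
      split_ifs at h
      cases h; rfl
    · cases h
    · cases h; rfl
  key_inj := by
    rintro ⟨s, a | e⟩ ⟨s', a' | e'⟩ h
    · simp only [Prod.mk.injEq, Sum.inr.injEq, Option.some.injEq] at h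
      obtain ⟨⟨rfl, rfl⟩, -⟩ := h
      rfl
    · simp only [Prod.mk.injEq, Sum.inr.injEq, Option.some.injEq, reduceCtorEq, and_false,
        false_and] at h
    · simp only [Prod.mk.injEq, Sum.inr.injEq, Option.some.injEq, reduceCtorEq, and_false,
        false_and] at h
    · simp only [Prod.mk.injEq, Sum.inr.injEq, Option.some.injEq, and_true] at h
      obtain ⟨rfl, rfl⟩ := h
      rfl

/-- the tape symbols in a stack -/
def tapes (X : List (Sy Γ Q)) : List Γ := X.filterMap Sum.getLeft?

omit [Inhabited Γ] [Inhabited Q] in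
@[simp] theorem tapes_nil : tapes ([] : List (Sy Γ Q)) = [] := rfl
omit [Inhabited Γ] [Inhabited Q] in
@[simp] theorem tapes_inl (a : Γ) (X : List (Sy Γ Q)) : tapes (Sum.inl a :: X) = a :: tapes X := rfl
omit [Inhabited Γ] [Inhabited Q] in
@[simp] theorem tapes_inr (j : Jk Γ Q) (X : List (Sy Γ Q)) : tapes (Sum.inr j :: X) = tapes X := rfl

/-- tape from the two halves, seen in direction `b` -/
def mkT (b : Bool) (P N : ListBlank Γ) : Tape Γ :=
  match b with
  | true => ⟨P.head, N, P.tail⟩
  | false => ⟨P.head, P.tail, N⟩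

theorem mkT_head (b : Bool) (P N : ListBlank Γ) : (mkT b P N).head = P.head := by
  cases b <;> rfl

theorem mkT_write (b : Bool) (P N : ListBlank Γ) (a : Γ) :
    (mkT b P N).write a = mkT b (P.tail.cons a) N := by
  cases b <;> simp [mkT, Tape.write]

theorem mkT_move_same (d : Dir) (P N : ListBlank Γ) :
    (mkT (dirB d) P N).move d = mkT (dirB d) P.tail (N.cons P.head) := by
  cases d <;> simp [mkT, Tape.move, dirB]

theorem mkT_move_other (d : Dir) (b : Bool) (h : dirB d ≠ b) (P N : ListBlank Γ) :
    (mkT b P N).move d = mkT (dirB d) N (P.tail.cons P.head) := by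
  cases d <;> cases b <;> simp [dirB] at h <;> simp [mkT, Tape.move, dirB]

/-- the relation between configurations -/
def Rel (c : TM0.Cfg Γ Q) (Z : List (Sy Γ Q) × List (Sy Γ Q)) : Prop :=
  ∃ j Y, Z.2 = Sum.inr j :: Y ∧
    c = ⟨(nxt M j).1, mkT (nxt M j).2 (ListBlank.mk (tapes Z.1)) (ListBlank.mk (tapes Z.2))⟩

/-- the top of the first stack is not junk -/
def Clean (Z : List (Sy Γ Q) × List (Sy Γ Q)) : Prop :=
  ∀ j X, Z.1 ≠ Sum.inr j :: X

theorem skip (c : TM0.Cfg Γ Q) (X : List (Sy Γ Q)) : ∀ Y, Rel M c (X, Y) →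
    ∃ Z, Rel M c Z ∧ Clean Z ∧ Reaches (mach M).step (X, Y) Z := by
  induction X with
  | nil => exact fun Y h => ⟨_, h, fun _ _ h' => (by cases h'), Relation.ReflTransGen.refl⟩
  | cons e X ih =>
    intro Y h
    rcases e with a | e
    · exact ⟨_, h, fun _ _ h' => (by cases h'), Relation.ReflTransGen.refl⟩
    · obtain ⟨j, Y', hY, hc⟩ := h
      simp only at hY hc
      subst hY
      have hstep : (mach M).step (Sum.inr e :: X, Sum.inr j :: Y') =
          some (X, Sum.inr (some (nxt M j, none)) :: Sum.inr e :: Sum.inr j :: Y') := rfl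
      obtain ⟨Z, h1, h2, h3⟩ := ih (Sum.inr (some (nxt M j, none)) :: Sum.inr e :: Sum.inr j :: Y')
        ⟨_, _, rfl, by simpa [nxt_skip] using hc⟩
      exact ⟨Z, h1, h2, Relation.ReflTransGen.head hstep h3⟩

theorem respects : Respects (TM0.step (M : TM0.Machine Γ Q)) (mach M).step
    (fun c Z => Rel M c Z ∧ Clean Z) := by
  rintro c ⟨X, Y⟩ ⟨⟨j, Y', hY, hc⟩, hclean⟩
  simp only at hY hc
  subst hY
  -- the symbol read
  obtain ⟨a, ha1, ha2⟩ : ∃ a, X.headD (mach M).blank = Sum.inl a ∧
      (ListBlank.mk (tapes X)).head = a := by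
    rcases X with _ | ⟨e, X⟩
    · exact ⟨default, rfl, rfl⟩
    · rcases e with a | e
      · exact ⟨a, rfl, rfl⟩
      · exact absurd rfl (hclean e X)
  have htail : (ListBlank.mk (tapes X)).tail = ListBlank.mk (tapes X.tail) := by
    rcases X with _ | ⟨e, X⟩
    · rfl
    · rcases e with a | e
      · rfl
      · exact absurd rfl (hclean e X)
  have hcls : (mach M).cls (X.headD (mach M).blank) (Sum.inr j) =
      if (M (nxt M j).1 a).isSome then some (nxt M j, Sum.inl a) else none := by
    rw [ha1]; rfl
  have hhead : (mkT (nxt M j).2 (ListBlank.mk (tapes X))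
      (ListBlank.mk (tapes (Sum.inr j :: Y' : List (Sy Γ Q))))).head = a := by
    rw [mkT_head, ha2]
  subst hc
  simp only [TM0.step, hhead]
  rcases hM : M (nxt M j).1 a with _ | ⟨q', st⟩
  · simp only [Option.map_none]
    simp only [Mach.step, List.headD_cons, hcls, hM]
    rfl
  · simp only [Option.map_some]
    have hstep : (mach M).step (X, Sum.inr j :: Y') =
        some ((mach M).app (nxt M j, Sum.inl a) X (Sum.inr j :: Y')) := by
      simp only [Mach.step, List.headD_cons, hcls, hM]
      rfl
    -- it is enough to reach a related configuration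
    suffices h : Rel M ⟨q', match st with
        | TM0.Stmt.move d => (mkT (nxt M j).2 (ListBlank.mk (tapes X))
            (ListBlank.mk (tapes (Sum.inr j :: Y' : List (Sy Γ Q))))).move d
        | TM0.Stmt.write a => (mkT (nxt M j).2 (ListBlank.mk (tapes X))
            (ListBlank.mk (tapes (Sum.inr j :: Y' : List (Sy Γ Q))))).write a⟩
        ((mach M).app (nxt M j, Sum.inl a) X (Sum.inr j :: Y')) by
      obtain ⟨Z, h1, h2, h3⟩ := skip M _ _ _ h
      exact ⟨Z, ⟨h1, h2⟩, Relation.TransGen.head' hstep h3⟩
    rcases st with d | b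
    · simp only
      by_cases hd : dirB d = (nxt M j).2
      · have happ : (mach M).app (nxt M j, Sum.inl a) X (Sum.inr j :: Y') =
            (X.tail, Sum.inr (some (nxt M j, some a)) :: Sum.inl a :: Sum.inr j :: Y') := by
          simp [Mach.app, mach, hM, hd]
        rw [happ]
        refine ⟨_, _, rfl, ?_⟩
        have hn : nxt M (some (nxt M j, some a)) = (q', dirB d) := nxtA_move M hM
        rw [hn, ← hd, mkT_move_same, ha2, htail]
        simp
      · have happ : (mach M).app (nxt M j, Sum.inl a) X (Sum.inr j :: Y') =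
            (Sum.inr j :: Y', Sum.inr (some (nxt M j, some a)) :: Sum.inl a :: X.tail) := by
          simp [Mach.app, mach, hM, hd]
        rw [happ]
        refine ⟨_, _, rfl, ?_⟩
        have hn : nxt M (some (nxt M j, some a)) = (q', dirB d) := nxtA_move M hM
        rw [hn, mkT_move_other _ _ hd, ha2, htail]
        simp
    · simp only
      have happ : (mach M).app (nxt M j, Sum.inl a) X (Sum.inr j :: Y') =
          (Sum.inl b :: X.tail,
            Sum.inr (some (nxt M j, some a)) :: Sum.inr none :: Sum.inr j :: Y') := by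
        simp [Mach.app, mach, hM]
      rw [happ]
      refine ⟨_, _, rfl, ?_⟩
      have hn : nxt M (some (nxt M j, some a)) = (q', (nxt M j).2) := nxtA_write M hM
      rw [hn, mkT_write, htail]
      simp

omit [Inhabited Γ] [Inhabited Q] in
theorem tapes_map_inl (l : List Γ) : tapes (l.map Sum.inl : List (Sy Γ Q)) = l := by
  induction l with
  | nil => rfl
  | cons a l ih => rw [List.map_cons, tapes_inl, ih]

theorem eval_dom (l : List Γ) :
    (StateTransition.eval (mach M).step (l.map Sum.inl, [Sum.inr none])).Dom ↔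
      (TM0.eval (M : TM0.Machine Γ Q) l).Dom := by
  have h := StateTransition.tr_eval_dom (respects M)
    (a₁ := (TM0.init l : TM0.Cfg Γ Q)) (a₂ := (l.map Sum.inl, [Sum.inr none]))
    ⟨⟨none, [], rfl, ?_⟩, ?_⟩
  · rw [h]; rfl
  · simp only [tapes_map_inl]
    rfl
  · intro j X h
    cases l <;> simp at h

end

/-- Halting in the form used for the flow. -/
theorem eval_dom_iff_run {E C : Type} (T : Mach E C) (Z : List E × List E) :
    (StateTransition.eval T.step Z).Dom ↔ ∃ m, T.run Z m = none := by
  constructor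
  · intro h
    obtain ⟨h1, h2⟩ := StateTransition.mem_eval.1 (Part.get_mem h)
    have key : ∀ Z', Reaches T.step Z Z' → ∃ m, T.run Z m = some Z' := by
      intro Z' hZ
      induction hZ with
      | refl => exact ⟨0, rfl⟩
      | tail _ hs ih =>
        obtain ⟨m, hm⟩ := ih
        exact ⟨m + 1, by rw [Mach.run, hm]; exact hs⟩
    obtain ⟨m, hm⟩ := key _ h1
    exact ⟨m + 1, by rw [Mach.run, hm]; exact h2⟩
  · rintro ⟨m, hm⟩
    have key : ∀ m, (∃ Z', T.run Z m = some Z' ∧ Reaches T.step Z Z') ∨
        ∃ Z', Reaches T.step Z Z' ∧ T.step Z' = none := by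
      intro m
      induction m with
      | zero => exact Or.inl ⟨Z, rfl, Relation.ReflTransGen.refl⟩
      | succ m ih =>
        rcases ih with ⟨Z', h1, h2⟩ | h
        · rcases hs : T.step Z' with _ | Z''
          · exact Or.inr ⟨Z', h2, hs⟩
          · exact Or.inl ⟨Z'', by rw [Mach.run, h1]; exact hs, h2.tail hs⟩
        · exact Or.inr h
    rcases key m with ⟨Z', h1, h2⟩ | ⟨Z', h1, h2⟩
    · rw [hm] at h1; cases h1
    · exact Part.dom_iff_mem.2 ⟨Z', StateTransition.mem_eval.2 ⟨h1, h2⟩⟩

end Vale.Agent.P113.TS
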